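import Mathlib
import Vale.Agent.P098.Cert6.Kron

/-!
P211, chart expressions: bihomogeneous expressions in four pairs `(xᵢ, yᵢ)` over a positive integer
denominator, padded automatically, with values at `yᵢ = 1 - xᵢ`: the first three pairs are affine variables
`xᵢ ∈ [0, 1]`, the last is the projective variable `x₃ / y₃ ∈ [0, ∞)`.  Formulas written over any
type with sums, products and rationals specialise to reals and to these expressions.
-/

namespace Vale.Agent.P211.Cert.Chart

open Vale.Agent.P098.Cert6.Kron (Poly Deg dadd deg? evalR)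

/-- The rationals among the values. -/
class Lit (α : Type) where
  lit : ℚ → α

noncomputable instance : Lit ℝ where lit z := (z : ℝ)

/-- A power by repeated products. -/
def npw {α : Type} [Mul α] [Lit α] (a : α) : ℕ → α
  | 0 => Lit.lit 1
  | n + 1 => npw a n * a

lemma npw_real (a : ℝ) : ∀ n, npw a n = a ^ n
  | 0 => by simp [npw, Lit.lit]
  | n + 1 => by rw [npw, npw_real a n, pow_succ]

/-- `xᵢ + yᵢ`, one in value. -/
def unitSum (i : Fin 4) : Poly := .add (.x i) (.y i)

/-- A power of an expression. -/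
def ppw (a : Poly) : ℕ → Poly
  | 0 => .const 1
  | 1 => a
  | n + 2 => .mul a (ppw a (n + 1))

/-- Multiply by a power of one in one pair. -/
def pad1 (a : Poly) (i : Fin 4) : ℕ → Poly
  | 0 => a
  | n + 1 => .mul (pad1 a i n) (unitSum i)

/-- Multiply by a power of the last `y`. -/
def padLast (a : Poly) : ℕ → Poly
  | 0 => a
  | n + 1 => .mul (padLast a n) (.y 3)

/-- Raise the degree from `d` to `d'`. -/
def padTo (a : Poly) (d d' : Deg) : Poly :=
  padLast (pad1 (pad1 (pad1 a 0 (d'.1 - d.1)) 1 (d'.2.1 - d.2.1)) 2 (d'.2.2.1 - d.2.2.1))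
    (d'.2.2.2 - d.2.2.2)

/-- A numerator, the predecessor of its denominator, and its degree. -/
structure Hom where
  q : ℕ
  d : Deg
  e : Poly

/-- The sum of two quotients. -/
def Hom.add (a b : Hom) : Hom :=
  let d : Deg := (max a.d.1 b.d.1, max a.d.2.1 b.d.2.1, max a.d.2.2.1 b.d.2.2.1,
    max a.d.2.2.2 b.d.2.2.2)
  let qa := a.q + 1
  let qb := b.q + 1
  let g := qa.gcd qb
  let ea := padTo a.e a.d d
  let eb := padTo b.e b.d d
  ⟨qa / g * qb - 1, d,
    .add (if qb / g = 1 then ea else .mul (.const (qb / g : ℕ)) ea)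
      (if qa / g = 1 then eb else .mul (.const (qa / g : ℕ)) eb)⟩

/-- Quotients, `none` being zero. -/
abbrev HP : Type := Option Hom

instance : Add HP where
  add
    | none, b => b
    | a, none => a
    | some a, some b => some (a.add b)

instance : Mul HP where
  mul
    | some a, some b => some ⟨(a.q + 1) * (b.q + 1) - 1, dadd a.d b.d, .mul a.e b.e⟩
    | _, _ => none

instance : Neg HP where
  neg
    | none => none
    | some a => some { a with e := .neg a.e }

/-- A rational. -/
def cst (z : ℚ) : HP := if z.num = 0 then none else some ⟨z.den - 1, (0, 0, 0, 0), .const z.num⟩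

instance : Lit HP where lit := cst

/-- A variable. -/
def var (i : Fin 4) : HP := some ⟨0, Vale.Agent.P098.Cert6.Kron.unit i, .x i⟩

/-- The numerator over `q + 1` at degree `d`, when it has a denominator dividing `q + 1`. -/
def finish (q : ℕ) (d : Deg) : HP → Poly
  | none => padTo (.const 0) (0, 0, 0, 0) d
  | some h => .mul (.const ((q + 1) / (h.q + 1) : ℕ)) (padTo h.e h.d d)

/-- The test for `finish`. -/
def finishOK (q : ℕ) (d : Deg) (a : HP) : Bool :=
  (match a with
    | none => true
    | some h => Nat.beq ((q + 1) % (h.q + 1)) 0 && decide (h.d.2.2.2 ≤ d.2.2.2)) && decide (deg? (finish q d a) = some d)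

noncomputable section

/-- The value. -/
def val (p : Fin 4 → ℝ) : HP → ℝ
  | none => 0
  | some h => evalR p h.e / ((h.q + 1 : ℕ) * (1 - p 3) ^ h.d.2.2.2)

variable {p : Fin 4 → ℝ}

lemma evalR_unitSum (i : Fin 4) : evalR p (unitSum i) = 1 := by simp [unitSum, evalR]

lemma evalR_pad1 (a : Poly) (i : Fin 4) : ∀ n, evalR p (pad1 a i n) = evalR p a
  | 0 => rfl
  | n + 1 => by rw [pad1, evalR, evalR_pad1 a i n, evalR_unitSum, mul_one]

lemma evalR_padLast (a : Poly) : ∀ n, evalR p (padLast a n) = evalR p a * (1 - p 3) ^ n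
  | 0 => by simp [padLast]
  | n + 1 => by
    rw [padLast, evalR, evalR_padLast a n, pow_succ, ← mul_assoc]
    simp [evalR]

lemma evalR_padTo (a : Poly) (d d' : Deg) :
    evalR p (padTo a d d') = evalR p a * (1 - p 3) ^ (d'.2.2.2 - d.2.2.2) := by
  simp only [padTo, evalR_padLast, evalR_pad1]

lemma evalR_scaled (n : ℕ) (a : Poly) :
    evalR p (if n = 1 then a else .mul (.const (n : ℕ)) a) = n * evalR p a := by
  split <;> simp [evalR, *]

lemma val_add (hp : p 3 < 1) : ∀ a b : HP, val p (a + b) = val p a + val p b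
  | none, none => by show val p none = _; simp [val]
  | none, some b => by show val p (some b) = _; simp [val]
  | some a, none => by show val p (some a) = _; simp [val]
  | some a, some b => by
    show val p (some (a.add b)) = _
    set qa := a.q + 1 with hqa
    set qb := b.q + 1 with hqb
    set g := qa.gcd qb with hg
    have hg0 : 0 < g := Nat.gcd_pos_of_pos_left _ (by omega)
    obtain ⟨u, hu⟩ : g ∣ qa := Nat.gcd_dvd_left _ _
    obtain ⟨v, hv⟩ : g ∣ qb := Nat.gcd_dvd_right _ _
    have du : qa / g = u := by rw [hu]; exact Nat.mul_div_cancel_left _ hg0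
    have dv : qb / g = v := by rw [hv]; exact Nat.mul_div_cancel_left _ hg0
    have hu0 : 0 < u := Nat.pos_of_mul_pos_left (hu ▸ (by omega : 0 < qa))
    have hv0 : 0 < v := Nat.pos_of_mul_pos_left (hv ▸ (by omega : 0 < qb))
    have hq : qa / g * qb - 1 + 1 = u * g * v := by
      rw [du, hv]
      have : 0 < u * (g * v) := by positivity
      rw [mul_assoc]; omega
    simp only [val, Hom.add, evalR, ← hqa, ← hqb, ← hg, evalR_scaled, evalR_padTo, du, dv]
    rw [du] at hq
    rw [hq, hu, hv]
    obtain ⟨i, hi⟩ := Nat.exists_eq_add_of_le (le_max_left a.d.2.2.2 b.d.2.2.2)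
    obtain ⟨j, hj⟩ := Nat.exists_eq_add_of_le (le_max_right a.d.2.2.2 b.d.2.2.2)
    generalize max a.d.2.2.2 b.d.2.2.2 = m at hi hj ⊢
    rw [show m - a.d.2.2.2 = i by omega, show m - b.d.2.2.2 = j by omega]
    have hy : (1 - p 3 : ℝ) ≠ 0 := by linarith
    have e1 : (1 - p 3) ^ m = (1 - p 3) ^ a.d.2.2.2 * (1 - p 3) ^ i := by rw [hi, pow_add]
    have e2 : (1 - p 3) ^ m = (1 - p 3) ^ b.d.2.2.2 * (1 - p 3) ^ j := by rw [hj, pow_add]
    push_cast
    have : (g : ℝ) ≠ 0 := by exact_mod_cast hg0.ne'
    have : (u : ℝ) ≠ 0 := by exact_mod_cast hu0.ne'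
    have : (v : ℝ) ≠ 0 := by exact_mod_cast hv0.ne'
    rw [add_div]
    congr 1
    · rw [e1]; field_simp
    · rw [e2]; field_simp

lemma val_mul : ∀ a b : HP, val p (a * b) = val p a * val p b
  | none, none => by show val p none = _; simp [val]
  | none, some b => by show val p none = _; simp [val]
  | some a, none => by show val p none = _; simp [val]
  | some a, some b => by
    show val p (some ⟨(a.q + 1) * (b.q + 1) - 1, dadd a.d b.d, .mul a.e b.e⟩) = _
    have h : (a.q + 1) * (b.q + 1) - 1 + 1 = (a.q + 1) * (b.q + 1) := by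
      have : 0 < (a.q + 1) * (b.q + 1) := by positivity
      omega
    simp only [val, evalR, h, Nat.cast_mul, div_mul_div_comm, dadd, pow_add]
    ring

lemma val_neg : ∀ a : HP, val p (-a) = -val p a
  | none => by show val p none = _; simp [val]
  | some a => by
    show val p (some { a with e := Poly.neg a.e }) = _
    simp [val, evalR, neg_div]

lemma val_cst (z : ℚ) : val p (cst z) = z := by
  unfold cst
  split
  · next h => simp [val, Rat.num_eq_zero.1 h]
  · simp [val, evalR, Rat.cast_def, Nat.sub_add_cancel z.den_pos]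

lemma val_lit (z : ℚ) : val p (Lit.lit z) = (Lit.lit z : ℝ) := val_cst z

lemma val_var (i : Fin 4) :
    val p (var i) = if i = 3 then p i / (1 - p 3) else p i := by
  fin_cases i <;> simp [val, var, evalR, Vale.Agent.P098.Cert6.Kron.unit]

lemma val_npw (a : HP) : ∀ n, val p (npw a n) = val p a ^ n
  | 0 => by simp [npw, Lit.lit, val_cst]
  | n + 1 => by rw [npw, val_mul, val_npw a n, pow_succ]

lemma evalR_finish {q : ℕ} {d : Deg} {a : HP} (hp : p 3 < 1) (h : finishOK q d a = true) :
    evalR p (finish q d a) = (q + 1 : ℕ) * (1 - p 3) ^ d.2.2.2 * val p a := by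
  cases a with
  | none => simp [finish, val, evalR_padTo, evalR]
  | some a =>
    simp only [finishOK, Bool.and_eq_true, Nat.beq_eq, decide_eq_true_eq] at h
    obtain ⟨c, hc⟩ := Nat.dvd_of_mod_eq_zero h.1.1
    obtain ⟨j, hj⟩ := Nat.exists_eq_add_of_le h.1.2
    simp only [finish, val, evalR, evalR_padTo, hc, Nat.mul_div_cancel_left _ (Nat.succ_pos _), hj,
      Nat.add_sub_cancel_left, pow_add]
    push_cast
    have : (1 - p 3 : ℝ) ≠ 0 := by linarith
    field_simp

end

end Vale.Agent.P211.Cert.Chart
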