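import Vale.Agent.P211.Cert.Conditions
import Vale.Agent.P211.Cert.Chart.HPoly

/-!
P211, the atoms of the class on a blown-up point `f - g = r w`, `2 - f - g = r² s`, `A = r² x`:
a numerator of weight at least `k` is `r ^ k` times a polynomial, and likewise its derivatives.
-/

namespace Vale.Agent.P211.Cert.Chart

/-- The scaled point and the slope of the weight. -/
structure Env (α : Type) where
  r : α
  w : α
  s : α
  x : α
  kp : ℚ

variable {α : Type} [Lit α] [Add α] [Mul α] [Neg α]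

/-- The sum of a list. -/
def lsum : List α → α
  | [] => Lit.lit 0
  | a :: l => a + lsum l

/-- `1 + A`. -/
def Env.one (E : Env α) : α := Lit.lit 1 + E.r * E.r * E.x

/-- The basis of the weight, scaled. -/
def Env.base (E : Env α) : α := E.x + E.w * E.w + Lit.lit E.kp * E.s

/-- The weight of a term. -/
def wt (T : Term) : ℕ := 2 * T.a + T.b + 2 * T.j

/-- The monomial in `w` and `s`. -/
def Env.mono (E : Env α) (b j : ℕ) : α := npw E.w b * npw E.s j

/-- A term over `r ^ k`. -/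
def Env.tV (E : Env α) (k : ℕ) (T : Term) : α :=
  Lit.lit (T.c : ℚ) * (npw E.x T.a * E.mono T.b T.j) * (npw E.r (wt T - k) * npw E.one T.m)

/-- Its derivative in `A` over `r ^ (k - 2)`. -/
def Env.tA (E : Env α) (k : ℕ) (T : Term) : α :=
  Lit.lit (T.c * T.a : ℚ) * (npw E.x (T.a - 1) * E.mono T.b T.j) *
      (npw E.r (wt T - k) * npw E.one T.m) +
    Lit.lit (T.c * T.m : ℚ) * (npw E.x T.a * E.mono T.b T.j) *
      (npw E.r (wt T + 2 - k) * npw E.one (T.m - 1))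

/-- Its derivative in `w` over `r ^ (k - 1)`. -/
def Env.tW (E : Env α) (k : ℕ) (T : Term) : α :=
  Lit.lit (T.c * T.b : ℚ) * (npw E.x T.a * E.mono (T.b - 1) T.j) *
    (npw E.r (wt T - k) * npw E.one T.m)

/-- Its derivative in `σ` over `r ^ (k - 2)`. -/
def Env.tS (E : Env α) (k : ℕ) (T : Term) : α :=
  Lit.lit (T.c * T.j : ℚ) * (npw E.x T.a * E.mono T.b (T.j - 1)) *
    (npw E.r (wt T - k) * npw E.one T.m)

/-- A coefficient over `r ^ (k + 2)`. -/
def Env.sV (E : Env α) (k : ℕ) (Y : Num) : α :=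
  Lit.lit 3 * (E.base * E.one) * lsum (Y.map (E.tV k))

/-- Its derivative in `A` over `r ^ k`. -/
def Env.sA (E : Env α) (k : ℕ) (Y : Num) : α :=
  let v := lsum (Y.map (E.tV k))
  Lit.lit 3 * (E.one * E.base) * lsum (Y.map (E.tA k)) + Lit.lit (-4) * (E.one * v) +
    Lit.lit (-6) * (E.r * E.r * E.base * v)

/-- Its derivative in `w` over `r ^ (k + 1)`. -/
def Env.sW (E : Env α) (k : ℕ) (Y : Num) : α :=
  Lit.lit 3 * (E.one * E.base) * lsum (Y.map (E.tW k)) +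
    Lit.lit (-8) * (E.one * (E.w * lsum (Y.map (E.tV k))))

/-- Its derivative in `f + g` over `r ^ k`. -/
def Env.sU (E : Env α) (k : ℕ) (Y : Num) : α :=
  Lit.lit (-3) * (E.one * E.base) * lsum (Y.map (E.tS k)) +
    Lit.lit (4 * E.kp) * (E.one * lsum (Y.map (E.tV k)))

/-- The slope of a multiplier over `r ^ k`. -/
def Env.sK (E : Env α) (k : ℕ) (Y : Num) : α :=
  Lit.lit 3 * (E.one * lsum (Y.map (E.tV k)))

/-- Every term has weight at least `k`. -/
def WtGe (k : ℕ) (Y : Num) : Prop := ∀ T ∈ Y, k ≤ wt T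

instance (k : ℕ) (Y : Num) : Decidable (WtGe k Y) := by unfold WtGe; infer_instance

noncomputable section

/-- The point that a scaled point stands for. -/
structure Env.At (E : Env ℝ) (f g A : ℝ) : Prop where
  hw : f - g = E.r * E.w
  hs : 2 - f - g = E.r ^ 2 * E.s
  hA : A = E.r ^ 2 * E.x
  hk : (E.kp : ℝ) = kap

lemma lsum_real : ∀ l : List ℝ, lsum l = l.sum
  | [] => by simp [lsum, Lit.lit]
  | a :: l => by rw [lsum, lsum_real l, List.sum_cons]

lemma Env.one_real (E : Env ℝ) : E.one = 1 + E.r ^ 2 * E.x := by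
  simp only [Env.one, Lit.lit, Rat.cast_one, sq]

lemma sum_scaled {f : Term → ℝ} {g : Term → ℝ} {c : ℝ} : ∀ {Y : Num},
    (∀ T ∈ Y, f T = c * g T) → (Y.map f).sum = c * (Y.map g).sum
  | [], _ => by simp
  | T :: Y, h => by
    simp only [List.map_cons, List.sum_cons, h T List.mem_cons_self,
      sum_scaled fun U hU => h U (List.mem_cons_of_mem _ hU), mul_add]

variable {E : Env ℝ} {k : ℕ} {Y : Num}

lemma val_scaled (hY : WtGe k Y) :
    Y.val (E.r * E.w) (E.r ^ 2 * E.s) (E.r ^ 2 * E.x) = E.r ^ k * lsum (Y.map (E.tV k)) := by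
  rw [lsum_real]
  refine sum_scaled fun T hT => ?_
  obtain ⟨n, hn⟩ := Nat.exists_eq_add_of_le (hY T hT)
  simp only [Term.val, Env.tV, Env.mono, npw_real, Env.one_real, Lit.lit, Rat.cast_intCast, hn,
    Nat.add_sub_cancel_left, mul_pow, ← pow_mul]
  have : E.r ^ (2 * T.a) * E.r ^ T.b * E.r ^ (2 * T.j) = E.r ^ k * E.r ^ n := by
    rw [← pow_add, ← pow_add, ← pow_add, ← hn]
    rfl
  linear_combination
    ((T.c : ℝ) * E.x ^ T.a * E.w ^ T.b * E.s ^ T.j * (1 + E.r ^ 2 * E.x) ^ T.m) * this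

lemma valA_scaled (hY : WtGe k Y) (hk : 2 ≤ k) :
    Y.valA (E.r * E.w) (E.r ^ 2 * E.s) (E.r ^ 2 * E.x) =
      E.r ^ (k - 2) * lsum (Y.map (E.tA k)) := by
  rw [lsum_real]
  refine sum_scaled fun T hT => ?_
  obtain ⟨n, hn⟩ := Nat.exists_eq_add_of_le (hY T hT)
  simp only [Term.valA, Env.tA, Env.mono, npw_real, Env.one_real, Lit.lit, Rat.cast_mul,
    Rat.cast_intCast, Rat.cast_natCast, hn, Nat.add_sub_cancel_left, mul_pow, ← pow_mul]
  have h2 : k + n + 2 - k = n + 2 := by omega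
  have e1 : (T.a : ℝ) * (E.r ^ (2 * (T.a - 1)) * E.r ^ T.b * E.r ^ (2 * T.j)) =
      (T.a : ℝ) * (E.r ^ (k - 2) * E.r ^ n) := by
    rcases Nat.eq_zero_or_pos T.a with ha | ha
    · simp [ha]
    · congr 1
      rw [← pow_add, ← pow_add, ← pow_add]
      congr 1
      simp only [wt] at hn
      omega
  have e2 : E.r ^ (2 * T.a) * E.r ^ T.b * E.r ^ (2 * T.j) = E.r ^ (k - 2) * E.r ^ (n + 2) := by
    rw [← pow_add, ← pow_add, ← pow_add]
    congr 1
    simp only [wt] at hn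
    omega
  rw [h2]
  linear_combination
    ((T.c : ℝ) * E.x ^ (T.a - 1) * (1 + E.r ^ 2 * E.x) ^ T.m * E.w ^ T.b * E.s ^ T.j) * e1 +
    ((T.c : ℝ) * (T.m : ℝ) * E.x ^ T.a * (1 + E.r ^ 2 * E.x) ^ (T.m - 1) * E.w ^ T.b *
      E.s ^ T.j) * e2

lemma valW_scaled (hY : WtGe k Y) (hk : 1 ≤ k) :
    Y.valW (E.r * E.w) (E.r ^ 2 * E.s) (E.r ^ 2 * E.x) =
      E.r ^ (k - 1) * lsum (Y.map (E.tW k)) := by
  rw [lsum_real]
  refine sum_scaled fun T hT => ?_
  obtain ⟨n, hn⟩ := Nat.exists_eq_add_of_le (hY T hT)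
  simp only [Term.valW, Env.tW, Env.mono, npw_real, Env.one_real, Lit.lit, Rat.cast_mul,
    Rat.cast_intCast, Rat.cast_natCast, hn, Nat.add_sub_cancel_left, mul_pow, ← pow_mul]
  have e1 : (T.b : ℝ) * (E.r ^ (2 * T.a) * E.r ^ (T.b - 1) * E.r ^ (2 * T.j)) =
      (T.b : ℝ) * (E.r ^ (k - 1) * E.r ^ n) := by
    rcases Nat.eq_zero_or_pos T.b with ha | ha
    · simp [ha]
    · congr 1
      rw [← pow_add, ← pow_add, ← pow_add]
      congr 1
      simp only [wt] at hn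
      omega
  linear_combination
    ((T.c : ℝ) * E.x ^ T.a * (1 + E.r ^ 2 * E.x) ^ T.m * E.w ^ (T.b - 1) * E.s ^ T.j) * e1

lemma valS_scaled (hY : WtGe k Y) (hk : 2 ≤ k) :
    Y.valS (E.r * E.w) (E.r ^ 2 * E.s) (E.r ^ 2 * E.x) =
      E.r ^ (k - 2) * lsum (Y.map (E.tS k)) := by
  rw [lsum_real]
  refine sum_scaled fun T hT => ?_
  obtain ⟨n, hn⟩ := Nat.exists_eq_add_of_le (hY T hT)
  simp only [Term.valS, Env.tS, Env.mono, npw_real, Env.one_real, Lit.lit, Rat.cast_mul,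
    Rat.cast_intCast, Rat.cast_natCast, hn, Nat.add_sub_cancel_left, mul_pow, ← pow_mul]
  have e1 : (T.j : ℝ) * (E.r ^ (2 * T.a) * E.r ^ T.b * E.r ^ (2 * (T.j - 1))) =
      (T.j : ℝ) * (E.r ^ (k - 2) * E.r ^ n) := by
    rcases Nat.eq_zero_or_pos T.j with ha | ha
    · simp [ha]
    · congr 1
      rw [← pow_add, ← pow_add, ← pow_add]
      congr 1
      simp only [wt] at hn
      omega
  linear_combination
    ((T.c : ℝ) * E.x ^ T.a * (1 + E.r ^ 2 * E.x) ^ T.m * E.w ^ T.b * E.s ^ (T.j - 1)) * e1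

variable {f g A : ℝ}

lemma Env.At.bB_eq (h : E.At f g A) : bB f g A = E.r ^ 2 * E.base := by
  simp only [bB, Env.base, Lit.lit, h.hw, h.hs, h.hA, h.hk]
  ring

lemma Env.At.scV_eq (h : E.At f g A) (hY : WtGe k Y) :
    scV Y f g A = E.r ^ (k + 2) * E.sV k Y := by
  rw [scV, h.bB_eq, h.hw, h.hs, h.hA, val_scaled hY]
  simp only [Env.sV, Lit.lit, Env.one_real, Rat.cast_ofNat, pow_add]
  ring

lemma Env.At.scA_eq (h : E.At f g A) (hY : WtGe k Y) (hk : 2 ≤ k) :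
    scA Y f g A = E.r ^ k * E.sA k Y := by
  rw [scA, h.bB_eq, h.hw, h.hs, h.hA, val_scaled hY, valA_scaled hY hk]
  obtain ⟨j, rfl⟩ := Nat.exists_eq_add_of_le hk
  simp only [Env.sA, Lit.lit, Env.one_real, Rat.cast_neg, Rat.cast_ofNat,
    Nat.add_sub_cancel_left, pow_add]
  ring

lemma Env.At.scW_eq (h : E.At f g A) (hY : WtGe k Y) (hk : 1 ≤ k) :
    scW Y f g A = E.r ^ (k + 1) * E.sW k Y := by
  rw [scW, h.bB_eq, h.hw, h.hs, h.hA, val_scaled hY, valW_scaled hY hk]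
  obtain ⟨j, rfl⟩ := Nat.exists_eq_add_of_le hk
  simp only [Env.sW, Lit.lit, Env.one_real, Rat.cast_neg, Rat.cast_ofNat,
    Nat.add_sub_cancel_left, pow_add]
  ring

lemma Env.At.scU_eq (h : E.At f g A) (hY : WtGe k Y) (hk : 2 ≤ k) :
    scU Y f g A = E.r ^ k * E.sU k Y := by
  rw [scU, h.bB_eq, h.hw, h.hs, h.hA, val_scaled hY, valS_scaled hY hk]
  obtain ⟨j, rfl⟩ := Nat.exists_eq_add_of_le hk
  simp only [Env.sU, Lit.lit, Env.one_real, Rat.cast_neg, Rat.cast_ofNat, Rat.cast_mul, h.hk,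
    Nat.add_sub_cancel_left, pow_add]
  ring

lemma Env.At.scK_eq (h : E.At f g A) (hY : WtGe k Y) :
    scK Y f g A = E.r ^ k * E.sK k Y := by
  rw [scK, h.hw, h.hs, h.hA, val_scaled hY]
  simp only [Env.sK, Lit.lit, Env.one_real, Rat.cast_ofNat]
  ring

end

end Vale.Agent.P211.Cert.Chart
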