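import Vale.Agent.P211.Cert.Chart.Hom

/-!
P211, the atoms of the class on a point blown up twice, `f - g = r p z`, `2 - f - g = r² s`,
`A = r² p² y`: at the singular point by `r`, along the diagonal by `p`.  Derivatives come multiplied
by `A`, which is how the forms of the interior see them.
-/

namespace Vale.Agent.P211.Cert.Chart

/-- The scaled point and the slope of the weight. -/
structure EnvD (α : Type) where
  r : α
  p : α
  z : α
  s : α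
  y : α
  kp : ℚ

variable {α : Type} [Lit α] [Add α] [Mul α] [Neg α]

/-- The weight of a term along the diagonal. -/
def wd (T : Term) : ℕ := 2 * T.a + T.b

/-- `A` over `r²`. -/
def EnvD.x (E : EnvD α) : α := E.p * E.p * E.y

/-- `1 + A`. -/
def EnvD.one (E : EnvD α) : α := Lit.lit 1 + E.r * E.r * E.x

/-- The basis of the weight over `r²`. -/
def EnvD.base (E : EnvD α) : α :=
  E.p * E.p * (E.y + E.z * E.z) + Lit.lit E.kp * E.s

/-- A term over `r ^ k p ^ l`. -/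
def EnvD.tV (E : EnvD α) (k l : ℕ) (T : Term) : α :=
  Lit.lit (T.c : ℚ) * (npw E.y T.a * npw E.z T.b * npw E.s T.j) *
    (npw E.r (wt T - k) * npw E.p (wd T - l) * npw E.one T.m)

/-- `A` times its derivative in `A`, over `r ^ k p ^ l`. -/
def EnvD.tA (E : EnvD α) (k l : ℕ) (T : Term) : α :=
  Lit.lit (T.c * T.a : ℚ) * (npw E.y T.a * npw E.z T.b * npw E.s T.j) *
      (npw E.r (wt T - k) * npw E.p (wd T - l) * npw E.one T.m) +
    Lit.lit (T.c * T.m : ℚ) * (npw E.y (T.a + 1) * npw E.z T.b * npw E.s T.j) *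
      (npw E.r (wt T + 2 - k) * npw E.p (wd T + 2 - l) * npw E.one (T.m - 1))

/-- `A` times its derivative in `w`, over `r ^ (k + 1) p ^ (l + 1)`. -/
def EnvD.tW (E : EnvD α) (k l : ℕ) (T : Term) : α :=
  Lit.lit (T.c * T.b : ℚ) * (npw E.y (T.a + 1) * npw E.z (T.b - 1) * npw E.s T.j) *
    (npw E.r (wt T - k) * npw E.p (wd T - l) * npw E.one T.m)

/-- `A` times its derivative in `σ`, over `r ^ k p ^ (l + 2)`. -/
def EnvD.tS (E : EnvD α) (k l : ℕ) (T : Term) : α :=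
  Lit.lit (T.c * T.j : ℚ) * (npw E.y (T.a + 1) * npw E.z T.b * npw E.s (T.j - 1)) *
    (npw E.r (wt T - k) * npw E.p (wd T - l) * npw E.one T.m)

/-- A coefficient over `r ^ (k + 2) p ^ l`. -/
def EnvD.sV (E : EnvD α) (k l : ℕ) (Y : Num) : α :=
  Lit.lit 3 * (E.base * E.one) * lsum (Y.map (E.tV k l))

/-- `A` times its derivative in `A`, over `r ^ (k + 2) p ^ l`. -/
def EnvD.sA (E : EnvD α) (k l : ℕ) (Y : Num) : α :=
  let v := lsum (Y.map (E.tV k l))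
  Lit.lit 3 * (E.one * E.base) * lsum (Y.map (E.tA k l)) + Lit.lit (-4) * (E.one * (E.x * v)) +
    Lit.lit (-6) * (E.r * E.r * (E.x * (E.base * v)))

/-- `A` times its derivative in `w`, over `r ^ (k + 3) p ^ (l + 1)`. -/
def EnvD.sW (E : EnvD α) (k l : ℕ) (Y : Num) : α :=
  Lit.lit 3 * (E.one * E.base) * lsum (Y.map (E.tW k l)) +
    Lit.lit (-8) * (E.one * (E.x * E.z * lsum (Y.map (E.tV k l))))

/-- `A` times its derivative in `f + g`, over `r ^ (k + 2) p ^ (l + 2)`. -/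
def EnvD.sU (E : EnvD α) (k l : ℕ) (Y : Num) : α :=
  Lit.lit (-3) * (E.one * E.base) * lsum (Y.map (E.tS k l)) +
    Lit.lit (4 * E.kp) * (E.one * (E.y * lsum (Y.map (E.tV k l))))

/-- Every term has weight at least `k` at the singular point and `l` along the diagonal. -/
def DiagGe (k l : ℕ) (Y : Num) : Prop := ∀ T ∈ Y, k ≤ wt T ∧ l ≤ wd T

instance (k l : ℕ) (Y : Num) : Decidable (DiagGe k l Y) := by unfold DiagGe; infer_instance

/-- Apply a map to a scaled point. -/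
def EnvD.map {β : Type} (φ : α → β) (E : EnvD α) : EnvD β :=
  ⟨φ E.r, φ E.p, φ E.z, φ E.s, φ E.y, E.kp⟩

section

variable {β : Type} [Lit β] [Add β] [Mul β] [Neg β] {φ : α → β}

lemma EnvD.map_x (h : IsLitHom φ) (E : EnvD α) : φ E.x = (E.map φ).x := by
  simp only [EnvD.x, EnvD.map, h.mul]

lemma EnvD.map_one (h : IsLitHom φ) (E : EnvD α) : φ E.one = (E.map φ).one := by
  simp only [EnvD.one, h.add, h.mul, h.lit, EnvD.map_x h]; rfl

lemma EnvD.map_base (h : IsLitHom φ) (E : EnvD α) : φ E.base = (E.map φ).base := by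
  simp only [EnvD.base, EnvD.map, h.add, h.mul, h.lit]

lemma EnvD.map_sum (h : IsLitHom φ) {t : EnvD α → Term → α} {t' : EnvD β → Term → β}
    (E : EnvD α) (ht : ∀ T, φ (t E T) = t' (E.map φ) T) (Y : Num) :
    φ (lsum (Y.map (t E))) = lsum (Y.map (t' (E.map φ))) := by
  rw [h.lsum, List.map_map]
  exact congrArg lsum (List.map_congr_left fun T _ => ht T)

lemma EnvD.map_tV (h : IsLitHom φ) (E : EnvD α) (k l : ℕ) (Y : Num) :
    φ (lsum (Y.map (E.tV k l))) = lsum (Y.map ((E.map φ).tV k l)) :=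
  EnvD.map_sum h (t := fun E => E.tV k l) (t' := fun E => E.tV k l) E (fun T => by
    simp only [EnvD.tV, h.mul, h.lit, h.npw, EnvD.map_one h]; rfl) Y

lemma EnvD.map_sV (h : IsLitHom φ) (E : EnvD α) (k l : ℕ) (Y : Num) :
    φ (E.sV k l Y) = (E.map φ).sV k l Y := by
  simp only [EnvD.sV, h.mul, h.lit, EnvD.map_one h, EnvD.map_base h, EnvD.map_tV h]

lemma EnvD.map_sA (h : IsLitHom φ) (E : EnvD α) (k l : ℕ) (Y : Num) :
    φ (E.sA k l Y) = (E.map φ).sA k l Y := by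
  have e := EnvD.map_sum h (t := fun E => E.tA k l) (t' := fun E => E.tA k l) E (fun T => by
    simp only [EnvD.tA, h.add, h.mul, h.lit, h.npw, EnvD.map_one h]; rfl) Y
  simp only [EnvD.sA, h.add, h.mul, h.lit, EnvD.map_one h, EnvD.map_base h, EnvD.map_x h,
    EnvD.map_tV h, e]
  rfl

lemma EnvD.map_sW (h : IsLitHom φ) (E : EnvD α) (k l : ℕ) (Y : Num) :
    φ (E.sW k l Y) = (E.map φ).sW k l Y := by
  have e := EnvD.map_sum h (t := fun E => E.tW k l) (t' := fun E => E.tW k l) E (fun T => by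
    simp only [EnvD.tW, h.mul, h.lit, h.npw, EnvD.map_one h]; rfl) Y
  simp only [EnvD.sW, h.add, h.mul, h.lit, EnvD.map_one h, EnvD.map_base h, EnvD.map_x h,
    EnvD.map_tV h, e]
  rfl

lemma EnvD.map_sU (h : IsLitHom φ) (E : EnvD α) (k l : ℕ) (Y : Num) :
    φ (E.sU k l Y) = (E.map φ).sU k l Y := by
  have e := EnvD.map_sum h (t := fun E => E.tS k l) (t' := fun E => E.tS k l) E (fun T => by
    simp only [EnvD.tS, h.mul, h.lit, h.npw, EnvD.map_one h]; rfl) Y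
  simp only [EnvD.sU, h.add, h.mul, h.lit, EnvD.map_one h, EnvD.map_base h, EnvD.map_tV h, e]
  rfl

end

noncomputable section

/-- The point that a scaled point stands for. -/
structure EnvD.At (E : EnvD ℝ) (f g A : ℝ) : Prop where
  hw : f - g = E.r * E.p * E.z
  hs : 2 - f - g = E.r ^ 2 * E.s
  hA : A = E.r ^ 2 * E.p ^ 2 * E.y
  hk : (E.kp : ℝ) = kap

lemma EnvD.x_real (E : EnvD ℝ) : E.x = E.p ^ 2 * E.y := by simp only [EnvD.x, sq]

lemma EnvD.one_real (E : EnvD ℝ) : E.one = 1 + E.r ^ 2 * (E.p ^ 2 * E.y) := by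
  simp only [EnvD.one, EnvD.x_real, Lit.lit, Rat.cast_one, sq]

variable {E : EnvD ℝ} {k l : ℕ} {Y : Num} {f g A : ℝ}

lemma EnvD.At.bB_eq (h : E.At f g A) : bB f g A = E.r ^ 2 * E.base := by
  simp only [bB, EnvD.base, Lit.lit, h.hw, h.hs, h.hA, h.hk]
  ring

lemma val_diag (hY : DiagGe k l Y) :
    Y.val (E.r * E.p * E.z) (E.r ^ 2 * E.s) (E.r ^ 2 * E.p ^ 2 * E.y) =
      E.r ^ k * E.p ^ l * lsum (Y.map (E.tV k l)) := by
  rw [lsum_real]
  refine sum_scaled fun T hT => ?_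
  obtain ⟨n, hn⟩ := Nat.exists_eq_add_of_le (hY T hT).1
  obtain ⟨o, ho⟩ := Nat.exists_eq_add_of_le (hY T hT).2
  simp only [Term.val, EnvD.tV, npw_real, EnvD.one_real, Lit.lit, Rat.cast_intCast, hn, ho,
    Nat.add_sub_cancel_left, mul_pow, ← pow_mul]
  have e1 : E.r ^ (2 * T.a) * E.r ^ T.b * E.r ^ (2 * T.j) = E.r ^ k * E.r ^ n := by
    rw [← pow_add, ← pow_add, ← pow_add, ← hn]; rfl
  have e2 : E.p ^ (2 * T.a) * E.p ^ T.b = E.p ^ l * E.p ^ o := by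
    rw [← pow_add, ← pow_add, ← ho]; rfl
  linear_combination
    ((T.c : ℝ) * E.y ^ T.a * E.z ^ T.b * E.s ^ T.j * (1 + E.r ^ 2 * (E.p ^ 2 * E.y)) ^ T.m *
      (E.p ^ (2 * T.a) * E.p ^ T.b)) * e1 +
    ((T.c : ℝ) * E.y ^ T.a * E.z ^ T.b * E.s ^ T.j * (1 + E.r ^ 2 * (E.p ^ 2 * E.y)) ^ T.m *
      (E.r ^ k * E.r ^ n)) * e2

lemma valA_diag (hY : DiagGe k l Y) :
    E.r ^ 2 * E.p ^ 2 * E.y *
        Y.valA (E.r * E.p * E.z) (E.r ^ 2 * E.s) (E.r ^ 2 * E.p ^ 2 * E.y) =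
      E.r ^ k * E.p ^ l * lsum (Y.map (E.tA k l)) := by
  rw [lsum_real, Num.valA, ← List.sum_map_mul_left]
  refine sum_scaled fun T hT => ?_
  obtain ⟨n, hn⟩ := Nat.exists_eq_add_of_le (hY T hT).1
  obtain ⟨o, ho⟩ := Nat.exists_eq_add_of_le (hY T hT).2
  have h2 : k + n + 2 - k = n + 2 := by omega
  have h3 : l + o + 2 - l = o + 2 := by omega
  simp only [Term.valA, EnvD.tA, npw_real, EnvD.one_real, Lit.lit, Rat.cast_mul,
    Rat.cast_intCast, Rat.cast_natCast, hn, ho, h2, h3, Nat.add_sub_cancel_left, mul_pow,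
    ← pow_mul]
  have e1 : E.r ^ (2 * T.a) * E.r ^ T.b * E.r ^ (2 * T.j) = E.r ^ k * E.r ^ n := by
    rw [← pow_add, ← pow_add, ← pow_add, ← hn]; rfl
  have e2 : E.p ^ (2 * T.a) * E.p ^ T.b = E.p ^ l * E.p ^ o := by
    rw [← pow_add, ← pow_add, ← ho]; rfl
  have e3 : (T.a : ℝ) * (E.r ^ 2 * E.p ^ 2 * E.y *
      (E.r ^ (2 * (T.a - 1)) * E.p ^ (2 * (T.a - 1)) * E.y ^ (T.a - 1))) =
      (T.a : ℝ) * (E.r ^ (2 * T.a) * E.p ^ (2 * T.a) * E.y ^ T.a) := by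
    rcases T.a with _ | a
    · simp
    · simp only [Nat.add_sub_cancel]; ring
  linear_combination
    ((T.c : ℝ) * (1 + E.r ^ 2 * (E.p ^ 2 * E.y)) ^ T.m * E.r ^ T.b * E.p ^ T.b * E.z ^ T.b *
      E.r ^ (2 * T.j) * E.s ^ T.j) * e3 +
    ((T.c : ℝ) * E.z ^ T.b * E.s ^ T.j * (E.p ^ (2 * T.a) * E.p ^ T.b) *
      ((T.a : ℝ) * E.y ^ T.a * (1 + E.r ^ 2 * (E.p ^ 2 * E.y)) ^ T.m +
        (T.m : ℝ) * E.y ^ (T.a + 1) * E.r ^ 2 * E.p ^ 2 *
          (1 + E.r ^ 2 * (E.p ^ 2 * E.y)) ^ (T.m - 1))) * e1 +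
    ((T.c : ℝ) * E.z ^ T.b * E.s ^ T.j * (E.r ^ k * E.r ^ n) *
      ((T.a : ℝ) * E.y ^ T.a * (1 + E.r ^ 2 * (E.p ^ 2 * E.y)) ^ T.m +
        (T.m : ℝ) * E.y ^ (T.a + 1) * E.r ^ 2 * E.p ^ 2 *
          (1 + E.r ^ 2 * (E.p ^ 2 * E.y)) ^ (T.m - 1))) * e2

lemma valW_diag (hY : DiagGe k l Y) :
    E.r ^ 2 * E.p ^ 2 * E.y *
        Y.valW (E.r * E.p * E.z) (E.r ^ 2 * E.s) (E.r ^ 2 * E.p ^ 2 * E.y) =
      E.r ^ (k + 1) * E.p ^ (l + 1) * lsum (Y.map (E.tW k l)) := by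
  rw [lsum_real, Num.valW, ← List.sum_map_mul_left]
  refine sum_scaled fun T hT => ?_
  obtain ⟨n, hn⟩ := Nat.exists_eq_add_of_le (hY T hT).1
  obtain ⟨o, ho⟩ := Nat.exists_eq_add_of_le (hY T hT).2
  simp only [Term.valW, EnvD.tW, npw_real, EnvD.one_real, Lit.lit, Rat.cast_mul,
    Rat.cast_intCast, Rat.cast_natCast, hn, ho, Nat.add_sub_cancel_left, mul_pow, ← pow_mul]
  have e : (T.b : ℝ) * (E.r ^ 2 * E.p ^ 2 * (E.r ^ (2 * T.a) * E.p ^ (2 * T.a)) *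
      (E.r ^ (T.b - 1) * E.p ^ (T.b - 1)) * E.r ^ (2 * T.j)) =
      (T.b : ℝ) * (E.r ^ (k + 1) * E.p ^ (l + 1) * (E.r ^ n * E.p ^ o)) := by
    simp only [wt, wd] at hn ho
    obtain hb | ⟨b, hb⟩ : T.b = 0 ∨ ∃ b, T.b = b + 1 :=
      T.b.eq_zero_or_pos.imp_right fun h => ⟨T.b - 1, by omega⟩
    · simp [hb]
    · congr 1
      rw [hb] at hn ho ⊢
      have e1 : 2 + 2 * T.a + b + 2 * T.j = k + 1 + n := by omega
      have e2 : 2 + 2 * T.a + b = l + 1 + o := by omega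
      calc _ = E.r ^ (2 + 2 * T.a + b + 2 * T.j) * E.p ^ (2 + 2 * T.a + b) := by
            simp only [Nat.add_sub_cancel, pow_add]; ring
        _ = _ := by rw [e1, e2]; simp only [pow_add]; ring
  linear_combination
    ((T.c : ℝ) * E.y ^ (T.a + 1) * E.z ^ (T.b - 1) * E.s ^ T.j *
      (1 + E.r ^ 2 * (E.p ^ 2 * E.y)) ^ T.m) * e

lemma valS_diag (hY : DiagGe k l Y) :
    E.r ^ 2 * E.p ^ 2 * E.y *
        Y.valS (E.r * E.p * E.z) (E.r ^ 2 * E.s) (E.r ^ 2 * E.p ^ 2 * E.y) =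
      E.r ^ k * E.p ^ (l + 2) * lsum (Y.map (E.tS k l)) := by
  rw [lsum_real, Num.valS, ← List.sum_map_mul_left]
  refine sum_scaled fun T hT => ?_
  obtain ⟨n, hn⟩ := Nat.exists_eq_add_of_le (hY T hT).1
  obtain ⟨o, ho⟩ := Nat.exists_eq_add_of_le (hY T hT).2
  simp only [Term.valS, EnvD.tS, npw_real, EnvD.one_real, Lit.lit, Rat.cast_mul,
    Rat.cast_intCast, Rat.cast_natCast, hn, ho, Nat.add_sub_cancel_left, mul_pow, ← pow_mul]
  have e : (T.j : ℝ) * (E.r ^ 2 * E.p ^ 2 * (E.r ^ (2 * T.a) * E.p ^ (2 * T.a)) *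
      (E.r ^ T.b * E.p ^ T.b) * E.r ^ (2 * (T.j - 1))) =
      (T.j : ℝ) * (E.r ^ k * E.p ^ (l + 2) * (E.r ^ n * E.p ^ o)) := by
    simp only [wt, wd] at hn ho
    obtain hb | ⟨b, hb⟩ : T.j = 0 ∨ ∃ b, T.j = b + 1 :=
      T.j.eq_zero_or_pos.imp_right fun h => ⟨T.j - 1, by omega⟩
    · simp [hb]
    · congr 1
      rw [hb] at hn ⊢
      have e1 : 2 + 2 * T.a + T.b + 2 * b = k + n := by omega
      have e2 : 2 + 2 * T.a + T.b = l + 2 + o := by omega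
      calc _ = E.r ^ (2 + 2 * T.a + T.b + 2 * b) * E.p ^ (2 + 2 * T.a + T.b) := by
            simp only [Nat.add_sub_cancel, pow_add]; ring
        _ = _ := by rw [e1, e2]; simp only [pow_add]; ring
  linear_combination
    ((T.c : ℝ) * E.y ^ (T.a + 1) * E.z ^ T.b * E.s ^ (T.j - 1) *
      (1 + E.r ^ 2 * (E.p ^ 2 * E.y)) ^ T.m) * e

lemma EnvD.At.scV_eq (h : E.At f g A) (hY : DiagGe k l Y) :
    scV Y f g A = E.r ^ (k + 2) * E.p ^ l * E.sV k l Y := by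
  rw [scV, h.bB_eq, h.hw, h.hs, h.hA, val_diag hY]
  simp only [EnvD.sV, Lit.lit, EnvD.one_real, Rat.cast_ofNat]
  ring

lemma EnvD.At.scA_eq (h : E.At f g A) (hY : DiagGe k l Y) :
    A * scA Y f g A = E.r ^ (k + 2) * E.p ^ l * E.sA k l Y := by
  rw [scA, h.bB_eq, h.hw, h.hs, h.hA, val_diag hY]
  simp only [EnvD.sA, Lit.lit, EnvD.one_real, EnvD.x_real, Rat.cast_neg, Rat.cast_ofNat]
  linear_combination (3 * (1 + E.r ^ 2 * E.p ^ 2 * E.y) * E.r ^ 2 * E.base) * valA_diag hY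

lemma EnvD.At.scW_eq (h : E.At f g A) (hY : DiagGe k l Y) :
    A * scW Y f g A = E.r ^ (k + 3) * E.p ^ (l + 1) * E.sW k l Y := by
  rw [scW, h.bB_eq, h.hw, h.hs, h.hA, val_diag hY]
  simp only [EnvD.sW, Lit.lit, EnvD.one_real, EnvD.x_real, Rat.cast_neg, Rat.cast_ofNat]
  linear_combination (3 * (1 + E.r ^ 2 * E.p ^ 2 * E.y) * E.r ^ 2 * E.base) * valW_diag hY

lemma EnvD.At.scU_eq (h : E.At f g A) (hY : DiagGe k l Y) :
    A * scU Y f g A = E.r ^ (k + 2) * E.p ^ (l + 2) * E.sU k l Y := by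
  rw [scU, h.bB_eq, h.hw, h.hs, h.hA, val_diag hY]
  simp only [EnvD.sU, Lit.lit, EnvD.one_real, Rat.cast_neg, Rat.cast_ofNat, Rat.cast_mul, h.hk]
  linear_combination (-3 * (1 + E.r ^ 2 * E.p ^ 2 * E.y) * E.r ^ 2 * E.base) * valS_diag hY

end

end Vale.Agent.P211.Cert.Chart
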