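import Vale.Agent.P211.Cert.Chart.Atoms

/-!
P211, the atoms commute with maps which preserve sums, products and rationals; so the value of an
expression built over `HP` is the same formula over the reals.
-/

namespace Vale.Agent.P211.Cert.Chart

variable {α β : Type} [Lit α] [Add α] [Mul α] [Neg α] [Lit β] [Add β] [Mul β] [Neg β]

/-- A map preserving the operations. -/
structure IsLitHom (φ : α → β) : Prop where
  lit : ∀ z, φ (Lit.lit z) = Lit.lit z
  add : ∀ a b, φ (a + b) = φ a + φ b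
  mul : ∀ a b, φ (a * b) = φ a * φ b
  neg : ∀ a, φ (-a) = -φ a

/-- The value is such a map. -/
lemma isLitHom_val {p : Fin 4 → ℝ} (hp : p 3 < 1) : IsLitHom (val p : HP → ℝ) :=
  ⟨val_lit, val_add hp, val_mul, val_neg⟩

/-- Apply a map to a scaled point. -/
def Env.map (φ : α → β) (E : Env α) : Env β := ⟨φ E.r, φ E.w, φ E.s, φ E.x, E.kp⟩

variable {φ : α → β}

lemma IsLitHom.npw (h : IsLitHom φ) (a : α) : ∀ n, φ (Chart.npw a n) = Chart.npw (φ a) n
  | 0 => by rw [Chart.npw, h.lit]; rfl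
  | n + 1 => by rw [Chart.npw, h.mul, IsLitHom.npw h a n]; rfl

lemma IsLitHom.lsum (h : IsLitHom φ) :
    ∀ l : List α, φ (Chart.lsum l) = Chart.lsum (l.map φ)
  | [] => h.lit 0
  | a :: l => by rw [Chart.lsum, h.add, IsLitHom.lsum h l]; rfl

lemma map_one (h : IsLitHom φ) (E : Env α) : φ E.one = (E.map φ).one := by
  simp only [Env.one, Env.map, h.add, h.mul, h.lit]

lemma map_base (h : IsLitHom φ) (E : Env α) : φ E.base = (E.map φ).base := by
  simp only [Env.base, Env.map, h.add, h.mul, h.lit]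

lemma map_tV (h : IsLitHom φ) (E : Env α) (k : ℕ) (Y : Num) :
    φ (lsum (Y.map (E.tV k))) = lsum (Y.map ((E.map φ).tV k)) := by
  rw [h.lsum, List.map_map]
  refine congrArg lsum (List.map_congr_left fun T _ => ?_)
  simp only [Function.comp, Env.tV, Env.mono, h.mul, h.lit, h.npw, map_one h]
  rfl

lemma map_tA (h : IsLitHom φ) (E : Env α) (k : ℕ) (Y : Num) :
    φ (lsum (Y.map (E.tA k))) = lsum (Y.map ((E.map φ).tA k)) := by
  rw [h.lsum, List.map_map]
  refine congrArg lsum (List.map_congr_left fun T _ => ?_)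
  simp only [Function.comp, Env.tA, Env.mono, h.add, h.mul, h.lit, h.npw, map_one h]
  rfl

lemma map_tW (h : IsLitHom φ) (E : Env α) (k : ℕ) (Y : Num) :
    φ (lsum (Y.map (E.tW k))) = lsum (Y.map ((E.map φ).tW k)) := by
  rw [h.lsum, List.map_map]
  refine congrArg lsum (List.map_congr_left fun T _ => ?_)
  simp only [Function.comp, Env.tW, Env.mono, h.mul, h.lit, h.npw, map_one h]
  rfl

lemma map_tS (h : IsLitHom φ) (E : Env α) (k : ℕ) (Y : Num) :
    φ (lsum (Y.map (E.tS k))) = lsum (Y.map ((E.map φ).tS k)) := by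
  rw [h.lsum, List.map_map]
  refine congrArg lsum (List.map_congr_left fun T _ => ?_)
  simp only [Function.comp, Env.tS, Env.mono, h.mul, h.lit, h.npw, map_one h]
  rfl

lemma map_sV (h : IsLitHom φ) (E : Env α) (k : ℕ) (Y : Num) :
    φ (E.sV k Y) = (E.map φ).sV k Y := by
  simp only [Env.sV, h.mul, h.lit, map_one h, map_base h, map_tV h]

lemma map_sA (h : IsLitHom φ) (E : Env α) (k : ℕ) (Y : Num) :
    φ (E.sA k Y) = (E.map φ).sA k Y := by
  simp only [Env.sA, h.add, h.mul, h.lit, map_one h, map_base h, map_tV h, map_tA h]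
  rfl

lemma map_sW (h : IsLitHom φ) (E : Env α) (k : ℕ) (Y : Num) :
    φ (E.sW k Y) = (E.map φ).sW k Y := by
  simp only [Env.sW, h.add, h.mul, h.lit, map_one h, map_base h, map_tV h, map_tW h]
  rfl

lemma map_sU (h : IsLitHom φ) (E : Env α) (k : ℕ) (Y : Num) :
    φ (E.sU k Y) = (E.map φ).sU k Y := by
  simp only [Env.sU, h.add, h.mul, h.lit, map_one h, map_base h, map_tV h, map_tS h]
  rfl

lemma map_sK (h : IsLitHom φ) (E : Env α) (k : ℕ) (Y : Num) :
    φ (E.sK k Y) = (E.map φ).sK k Y := by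
  simp only [Env.sK, h.mul, h.lit, map_one h, map_tV h]

end Vale.Agent.P211.Cert.Chart
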