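import Vale.Agent.P211.Cert.LevelFacts
import Vale.Agent.P211.Cert.Chart.Hom

/-!
P211, the constants of the certificate as rationals and the two pieces of the constraint curve
`qLev f + qLev g = 2`: the cube piece in blown-up variables, and the piece with `11 / 10 ≤ f`
written as `f = 158 / 125 - ζ g`.
-/

namespace Vale.Agent.P211.Cert.Chart

/-- The weight of `σ`. -/
def kapR : ℚ := 10

/-- The weight of the correction. -/
def gamR : ℚ := 304496 / 68921

/-- The switch. -/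
def swR : ℚ := 11 / 10

/-- The end of the curve. -/
def endR : ℚ := 158 / 125

lemma kapR_eq : (kapR : ℝ) = kap := by norm_num [kapR, kap]

lemma gamR_eq : (gamR : ℝ) = gamQ := by norm_num [gamR, gamQ]

variable {α : Type} [Lit α] [Add α] [Mul α] [Neg α]

/-- `eLev` past the switch. -/
def eHi (f : α) : α :=
  let z := f + Lit.lit (-swR)
  f * f + Lit.lit (-gamR) * (z * z)

/-- Its derivative past the switch. -/
def eHi₁ (f : α) : α := Lit.lit 2 * f + Lit.lit (-2 * gamR) * (f + Lit.lit (-swR))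

/-- `qLev` past the switch. -/
def qHi (f : α) : α := npw f 3 + Lit.lit (-gamR) * npw (f + Lit.lit (-swR)) 3

/-- `reactF`. -/
def reactP (f : α) : α := Lit.lit 2 * (f * (Lit.lit 1 + -(npw f 3)))

/-- `f + g` on a scaled point. -/
def Env.tsum (E : Env α) : α := Lit.lit 2 + -(E.r * E.r * E.s)

/-- `f` on a scaled point. -/
def Env.fP (E : Env α) : α := Lit.lit (1 / 2) * (E.tsum + E.r * E.w)

/-- `g` on a scaled point. -/
def Env.gP (E : Env α) : α := Lit.lit (1 / 2) * (E.tsum + -(E.r * E.w))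

/-- `4 (f³ + g³ - 2) / r²`. -/
def Env.cubeCon (E : Env α) : α :=
  let u := E.r * E.r * E.s
  Lit.lit 3 * (E.tsum * (E.w * E.w)) +
    -(E.s * (Lit.lit 12 + Lit.lit (-6) * u + u * u))

/-- The point `f = endR - ζ g`: linear in `g`, so that the degrees stay low. -/
def farF (ζ g : α) : α := Lit.lit endR + -(ζ * g)

/-- `(qLev f + qLev g - 2) / (-g)` at that point. -/
def farCon (ζ g : α) : α :=
  let d := ζ * g
  let z := endR - swR
  let e := endR * endR - gamR * z * z
  let e₁ := 2 * endR - 2 * gamR * z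
  ζ * (Lit.lit (3 * e) + Lit.lit (-3 / 2 * e₁) * d + Lit.lit (1 - gamR) * (d * d)) + -(g * g)

section

variable {β : Type} [Lit β] [Add β] [Mul β] [Neg β] {φ : α → β}

lemma map_eHi (h : IsLitHom φ) (f : α) : φ (eHi f) = eHi (φ f) := by
  simp only [eHi, h.add, h.mul, h.lit]

lemma map_eHi₁ (h : IsLitHom φ) (f : α) : φ (eHi₁ f) = eHi₁ (φ f) := by
  simp only [eHi₁, h.add, h.mul, h.lit]

lemma map_reactP (h : IsLitHom φ) (f : α) : φ (reactP f) = reactP (φ f) := by
  simp only [reactP, h.add, h.mul, h.neg, h.lit, h.npw]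

lemma map_tsum (h : IsLitHom φ) (E : Env α) : φ E.tsum = (E.map φ).tsum := by
  simp only [Env.tsum, Env.map, h.add, h.mul, h.neg, h.lit]

lemma map_fP (h : IsLitHom φ) (E : Env α) : φ E.fP = (E.map φ).fP := by
  simp only [Env.fP, h.add, h.mul, h.lit, map_tsum h]
  rfl

lemma map_gP (h : IsLitHom φ) (E : Env α) : φ E.gP = (E.map φ).gP := by
  simp only [Env.gP, h.add, h.mul, h.neg, h.lit, map_tsum h]
  rfl

lemma map_cubeCon (h : IsLitHom φ) (E : Env α) : φ E.cubeCon = (E.map φ).cubeCon := by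
  simp only [Env.cubeCon, h.add, h.mul, h.neg, h.lit, map_tsum h]
  rfl

lemma map_farF (h : IsLitHom φ) (ζ g : α) : φ (farF ζ g) = farF (φ ζ) (φ g) := by
  simp only [farF, h.add, h.mul, h.neg, h.lit]

lemma map_farCon (h : IsLitHom φ) (ζ g : α) : φ (farCon ζ g) = farCon (φ ζ) (φ g) := by
  simp only [farCon, h.add, h.mul, h.neg, h.lit]

end

noncomputable section

lemma level_hi {f : ℝ} (hf : 11 / 10 ≤ f) :
    qLev f = qHi f ∧ eLev f = eHi f ∧ eLev₁ f = eHi₁ f := by
  simp only [qLev, eLev, eLev₁, max_eq_left (show (0 : ℝ) ≤ f - 11 / 10 by linarith), qHi, eHi,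
    eHi₁, npw_real, Lit.lit, swR, Rat.cast_neg, Rat.cast_mul, gamR_eq]
  norm_num
  refine ⟨?_, ?_, ?_⟩ <;> ring

lemma level_lo {f : ℝ} (hf : f ≤ 11 / 10) :
    qLev f = f ^ 3 ∧ eLev f = f ^ 2 ∧ eLev₁ f = 2 * f := by
  simp only [qLev, eLev, eLev₁, max_eq_right (show f - 11 / 10 ≤ (0 : ℝ) by linarith)]
  refine ⟨?_, ?_, ?_⟩ <;> ring

lemma reactP_real (f : ℝ) : reactP f = reactF f := by
  simp only [reactP, reactF, npw_real, Lit.lit]
  push_cast
  ring

variable {E : Env ℝ} {f g A : ℝ}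

lemma Env.At.fP_eq (h : E.At f g A) : E.fP = f ∧ E.gP = g := by
  have h1 := h.hw
  have h2 := h.hs
  simp only [Env.fP, Env.gP, Env.tsum, Lit.lit]
  push_cast
  constructor <;> linarith

lemma Env.At.cubeCon_eq (h : E.At f g A) :
    E.r ^ 2 * E.cubeCon = 4 * (f ^ 3 + g ^ 3 - 2) := by
  obtain ⟨rfl, rfl⟩ := h.fP_eq
  simp only [Env.fP, Env.gP, Env.tsum, Env.cubeCon, Lit.lit]
  push_cast
  ring

lemma farCon_eq {ζ g : ℝ} (hg : g ≤ 11 / 10) (hf : 11 / 10 ≤ farF ζ g) :
    qLev (farF ζ g) + qLev g - 2 = -(g * farCon ζ g) := by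
  rw [(level_hi hf).1, (level_lo hg).1]
  simp only [qHi, farCon, farF, endR, swR, gamR, Lit.lit, npw_real]
  push_cast
  ring

end

end Vale.Agent.P211.Cert.Chart
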